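import Vale.Agent.P011.H900.SpecX
import Mathlib.FieldTheory.Galois.Basic

/-!
The fixed field of a list of automorphisms of a number field.
-/

open Module IntermediateField

namespace Vale.Agent.P011.H900

section aut

variable {F : Type} [Field F]

/-- The map `r` is an automorphism. -/
def IsA (r : F → F) : Prop := ∃ g : F ≃+* F, ⇑g = r

theorem Aut.bij {n : ℕ} {r : F → F} (hn : n ≠ 0) (h : Aut n r) : Function.Bijective r := by
  obtain ⟨m, rfl⟩ := Nat.exists_eq_succ_of_ne_zero hn
  obtain ⟨-, h2, -⟩ := h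
  constructor
  · have h3 : Function.LeftInverse (r^[m]) r := fun x => by
      have h4 := congrFun h2 x
      rwa [Nat.succ_eq_add_one, Function.iterate_succ_apply] at h4
    exact h3.injective
  · have h3 : Function.RightInverse (r^[m]) r := fun x => by
      have h4 := congrFun h2 x
      rwa [Nat.succ_eq_add_one, Function.iterate_succ_apply'] at h4
    exact h3.surjective

theorem Aut.isA {n : ℕ} {r : F → F} (hn : n ≠ 0) (h : Aut n r) : IsA r :=
  ⟨{ Equiv.ofBijective r (h.bij hn) with
      map_mul' := fun x y => (h.1 x y).2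
      map_add' := fun x y => (h.1 x y).1 }, rfl⟩

theorem IsA.zero {r : F → F} (h : IsA r) : r 0 = 0 := by
  obtain ⟨g, rfl⟩ := h
  exact map_zero g

theorem IsA.one {r : F → F} (h : IsA r) : r 1 = 1 := by
  obtain ⟨g, rfl⟩ := h
  exact map_one g

theorem Aut.three {r : F → F} (h : Aut 3 r) (x : F) : r (r (r x)) = x := congrFun h.2.1 x

theorem Aut.two {r : F → F} (h : Aut 2 r) (x : F) : r (r x) = x := congrFun h.2.1 x

theorem Aut.exists_ne {n : ℕ} {r : F → F} (h : Aut n r) : ∃ x, r x ≠ x := by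
  by_contra h1
  push Not at h1
  exact h.2.2 (funext h1)

end aut

section base

variable {F : Type} [Field F] [NumberField F]

/-- The fixed field of a list of automorphisms. -/
theorem exists_base (l : List (F → F)) (hl : ∀ r ∈ l, IsA r) :
    ∃ (k : Type) (_ : Field k) (_ : NumberField k) (_ : Algebra k F), FiniteDimensional k F ∧
      IsGalois k F ∧ (∀ x, (∀ r ∈ l, r x = x) → ∃ y : k, algebraMap k F y = x) ∧
      (∀ r ∈ l, ∃ ρ : F ≃ₐ[k] F, ⇑ρ = r) ∧
      Subgroup.closure {g : F ≃ₐ[k] F | ⇑g ∈ l} = ⊤ := by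
  classical
  let S : Set (F ≃ₐ[ℚ] F) := {g | ⇑g ∈ l}
  let H : Subgroup (F ≃ₐ[ℚ] F) := Subgroup.closure S
  let k : IntermediateField ℚ F := fixedField H
  have hS : ∀ r ∈ l, ∃ g : F ≃ₐ[ℚ] F, ⇑g = r := by
    intro r hr
    obtain ⟨g, hg⟩ := hl r hr
    exact ⟨AlgEquiv.ofRingEquiv (f := g) (fun q => by
      rw [eq_ratCast, map_ratCast]), hg⟩
  have hk : ∀ x : F, x ∈ k ↔ ∀ g ∈ H, g x = x := fun x => mem_fixedField_iff H x
  have hcard : finrank k F = Nat.card H := finrank_fixedField_eq_card H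
  have hfix : fixingSubgroup k = H := fixingSubgroup_fixedField H
  have hcard2 : Nat.card (F ≃ₐ[k] F) = finrank k F := by
    rw [hcard, ← hfix]
    exact (Nat.card_congr (fixingSubgroupEquiv k).toEquiv).symm
  have hgal : IsGalois k F := IsGalois.of_card_aut_eq_finrank k F hcard2
  refine ⟨k, inferInstance, inferInstance, inferInstance, inferInstance, hgal, ?_, ?_, ?_⟩
  · intro x hx
    refine ⟨⟨x, (hk x).2 fun g hg => ?_⟩, rfl⟩
    refine Subgroup.closure_induction (p := fun g _ => g x = x) ?_ ?_ ?_ ?_ hg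
    · intro g hg
      exact hx _ hg
    · rfl
    · intro g h _ _ hg hh
      rw [AlgEquiv.mul_apply, hh, hg]
    · intro g _ hg
      calc g⁻¹ x = g⁻¹ (g x) := by rw [hg]
        _ = x := by rw [← AlgEquiv.mul_apply, inv_mul_cancel]; rfl
  · intro r hr
    obtain ⟨g, rfl⟩ := hS r hr
    refine ⟨AlgEquiv.ofRingEquiv (f := (g : F ≃+* F)) (fun y => ?_), rfl⟩
    exact (hk y).1 y.2 g (Subgroup.subset_closure hr)
  · rw [eq_top_iff]
    intro g _
    have key : ∀ h ∈ H, ∃ g' ∈ Subgroup.closure {g : F ≃ₐ[k] F | ⇑g ∈ l}, ∀ x, g' x = h x := by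
      intro h hh
      refine Subgroup.closure_induction (p := fun h _ =>
        ∃ g' ∈ Subgroup.closure {g : F ≃ₐ[k] F | ⇑g ∈ l}, ∀ x, g' x = h x) ?_ ?_ ?_ ?_ hh
      · intro h hh
        refine ⟨AlgEquiv.ofRingEquiv (f := (h : F ≃+* F)) (fun y => ?_),
          Subgroup.subset_closure hh, fun _ => rfl⟩
        exact (hk y).1 y.2 h (Subgroup.subset_closure hh)
      · exact ⟨1, one_mem _, fun _ => rfl⟩
      · rintro g h _ _ ⟨g1, h1, h2⟩ ⟨g3, h3, h4⟩
        exact ⟨g1 * g3, mul_mem h1 h3, fun x => by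
          rw [AlgEquiv.mul_apply, AlgEquiv.mul_apply, h4, h2]⟩
      · rintro g _ ⟨g1, h1, h2⟩
        refine ⟨g1⁻¹, inv_mem h1, fun x => ?_⟩
        have h5 : g1 (g⁻¹ x) = x := by
          rw [h2, ← AlgEquiv.mul_apply, mul_inv_cancel]; rfl
        calc g1⁻¹ x = g1⁻¹ (g1 (g⁻¹ x)) := by rw [h5]
          _ = g⁻¹ x := by rw [← AlgEquiv.mul_apply, inv_mul_cancel]; rfl
    have hg : (g.restrictScalars ℚ) ∈ H := by
      rw [← hfix, IntermediateField.mem_fixingSubgroup_iff]
      intro x hx
      exact g.commutes ⟨x, hx⟩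
    obtain ⟨g', h1, h2⟩ := key _ hg
    have h3 : g = g' := by
      ext x
      exact (h2 x).symm
    rw [h3]
    exact h1

end base

section card

/-- The order of a group is at most the number of elements of a finite set containing one and
stable under generators. -/
theorem card_le {G : Type} [Group G] {S : Set G} (hS : Subgroup.closure S = ⊤) (T : Finset G)
    (h1 : (1 : G) ∈ T) (hT : ∀ s ∈ S, ∀ t ∈ T, s * t ∈ T) : Nat.card G ≤ T.card := by
  classical
  have key : ∀ g : G, ∀ t ∈ T, g * t ∈ T := by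
    intro g
    have hg : g ∈ Subgroup.closure S := by rw [hS]; trivial
    refine Subgroup.closure_induction (p := fun g _ => ∀ t ∈ T, g * t ∈ T) ?_ ?_ ?_ ?_ hg
    · exact hT
    · intro t ht
      rwa [one_mul]
    · intro x y _ _ hx hy t ht
      rw [mul_assoc]
      exact hx _ (hy _ ht)
    · intro x _ hx t ht
      have h2 : T.map ⟨fun t => x * t, mul_right_injective x⟩ = T := by
        apply Finset.eq_of_subset_of_card_le
        · intro u hu
          rw [Finset.mem_map] at hu
          obtain ⟨v, hv, rfl⟩ := hu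
          exact hx v hv
        · rw [Finset.card_map]
      rw [← h2, Finset.mem_map] at ht
      obtain ⟨v, hv, hv2⟩ := ht
      have hv3 : x * v = t := hv2
      rw [← hv3, ← mul_assoc, inv_mul_cancel, one_mul]
      exact hv
  have h2 : ∀ g : G, g ∈ T := fun g => by
    have h3 := key g 1 h1
    rwa [mul_one] at h3
  have : Fintype G := ⟨T, h2⟩
  rw [Nat.card_eq_fintype_card, ← Finset.card_univ]
  exact Finset.card_le_card fun g _ => h2 g

end card

end Vale.Agent.P011.H900
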