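import Vale.Agent.P011.H900.Brg0
import Vale.Agent.P011.D4.Defs
import Vale.Agent.P011.D4.Oct

/-!
Octonions in the old and in the new letters; transport of groups.
-/

open Module

namespace Vale.Agent.P011.H900

open Vale.Agent.P011.MPQ Vale.Agent.P011.D4

section oct

variable {F : Type} [Field F]

theorem re_om_oc {a b : F} (c : F) (x : Oc a b) :
    re (om c x (oc x)) = x.1.re ^ 2 - a * x.1.imI ^ 2 - b * x.1.imJ ^ 2 + a * b * x.1.imK ^ 2 -
      c * (x.2.re ^ 2 - a * x.2.imI ^ 2 - b * x.2.imJ ^ 2 + a * b * x.2.imK ^ 2) := by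
  simp [re, om, oc]
  ring

/-- The octonions in the old and in the new letters. -/
def oe (a b c : Fˣ) : Oct a b c ≃ Oc (a : F) (b : F) where
  toFun x := (x.fst, x.snd)
  invFun x := ⟨x.1, x.2⟩
  left_inv _ := rfl
  right_inv _ := rfl

variable {a b c : Fˣ}

theorem oe_add (x y : Oct a b c) : oe a b c (x + y) = oe a b c x + oe a b c y := rfl

theorem oe_zero : oe a b c 0 = 0 := rfl

theorem oe_one : oe a b c 1 = (1, 0) := rfl

theorem oe_smul (t : F) (x : Oct a b c) : oe a b c (t • x) = t • oe a b c x := rfl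

theorem oe_mul (x y : Oct a b c) : oe a b c (x * y) = om (c : F) (oe a b c x) (oe a b c y) := rfl

theorem oe_star (x : Oct a b c) : oe a b c (star x) = oc (oe a b c x) := rfl

theorem oe_norm (x : Oct a b c) :
    Oct.norm x = re (om (c : F) (oe a b c x) (oc (oe a b c x))) := by
  rw [re_om_oc]
  rfl

theorem oe_symm_fst (x : Oc (a : F) (b : F)) : ((oe a b c).symm x).fst = x.1 := rfl

theorem oe_symm_snd (x : Oc (a : F) (b : F)) : ((oe a b c).symm x).snd = x.2 := rfl

end oct

section ext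

variable {k F : Type} [Field k] [Field F] [Algebra k F] {a b c : kˣ}

theorem oe_omap (ρ : F ≃ₐ[k] F) (x : OctL F a b c) :
    oe (up F a) (up F b) (up F c) (omap ρ x) = ap ρ (oe (up F a) (up F b) (up F c) x) := rfl

end ext

section dvn

variable {F : Type} [Field F]

theorem Dvn.ne {l m : List (F → F)} {a b c : F} (h : Dvn l m a b c) (hm : ∀ r ∈ m, IsA r) :
    a ≠ 0 ∧ b ≠ 0 ∧ c ≠ 0 := by
  obtain ⟨-, h⟩ := h
  refine ⟨?_, ?_, ?_⟩
  · rintro rfl
    have h1 := h (⟨0, 1, 0, 0⟩, 0) (fun r hr => by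
      obtain ⟨g, rfl⟩ := hm r hr
      simp [ap]
      rfl) (by rw [re_om_oc]; simp)
    have h2 := congrArg (fun x : Oc 0 b => x.1.imI) h1
    simp at h2
  · rintro rfl
    have h1 := h (⟨0, 0, 1, 0⟩, 0) (fun r hr => by
      obtain ⟨g, rfl⟩ := hm r hr
      simp [ap]
      rfl) (by rw [re_om_oc]; simp)
    have h2 := congrArg (fun x : Oc a 0 => x.1.imJ) h1
    simp at h2
  · rintro rfl
    have h1 := h (0, ⟨1, 0, 0, 0⟩) (fun r hr => by
      obtain ⟨g, rfl⟩ := hm r hr
      simp [ap]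
      rfl) (by rw [re_om_oc]; simp)
    have h2 := congrArg (fun x : Oc a b => x.2.re) h1
    simp at h2

end dvn

section transport

/-- A group of permutations in the new letters. -/
theorem mem_grp {V W : Type} (e : V ≃ W) (G : Subgroup (Equiv.Perm W)) (P : (V → V) → Prop)
    (h : ∀ g : Equiv.Perm V, P g ↔ e.permCongr g ∈ G) (g : Equiv.Perm V) :
    g ∈ grp P ↔ e.permCongr g ∈ G := by
  have h1 : grp P = G.comap (e.permCongrHom : Equiv.Perm V ≃* Equiv.Perm W).toMonoidHom := by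
    have h2 : {f : Equiv.Perm V | P f} =
        (G.comap (e.permCongrHom : Equiv.Perm V ≃* Equiv.Perm W).toMonoidHom :
          Set (Equiv.Perm V)) := by
      ext f
      exact h f
    rw [grp, h2, Subgroup.closure_eq]
  rw [h1]
  rfl

/-- Transport of subgroups. -/
noncomputable def gEquiv {V W : Type} (e : V ≃ W) (G : Subgroup (Equiv.Perm W))
    (P : (V → V) → Prop) (h : ∀ g : Equiv.Perm V, P g ↔ e.permCongr g ∈ G) : grp P ≃* G where
  toFun g := ⟨e.permCongr g.1, (mem_grp e G P h g.1).1 g.2⟩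
  invFun g := ⟨e.permCongr.symm g.1, (mem_grp e G P h _).2 (by
    rw [Equiv.apply_symm_apply]
    exact g.2)⟩
  left_inv g := by
    ext x
    simp
  right_inv g := by
    ext x
    simp
  map_mul' f g := by
    ext x
    simp

theorem noIndex_of {V W : Type} (e : V ≃ W) (G : Subgroup (Equiv.Perm W)) (P : (V → V) → Prop)
    (h : ∀ g : Equiv.Perm V, P g ↔ e.permCongr g ∈ G)
    (hG : ∀ N : Subgroup G, N.index ≠ 0 → N = ⊤) : NoIndex P := by
  intro N hN
  have h1 := hG (N.map (gEquiv e G P h).toMonoidHom) (by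
    rw [Subgroup.index_map_of_bijective (gEquiv e G P h).bijective]
    exact hN)
  rw [eq_top_iff]
  intro x _
  have h2 : gEquiv e G P h x ∈ N.map (gEquiv e G P h).toMonoidHom := by
    rw [h1]
    trivial
  obtain ⟨y, hy, hy2⟩ := h2
  have h3 : y = x := (gEquiv e G P h).injective hy2
  exact h3 ▸ hy

theorem open_of {V W : Type} (e : V ≃ W) (G : Subgroup (Equiv.Perm W)) (P : (V → V) → Prop)
    (h : ∀ g : Equiv.Perm V, P g ↔ e.permCongr g ∈ G) (Q : ℝ → (V → V) → Prop)
    (Q' : ℝ → (W → W) → Prop)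
    (hQ : ∀ t (g : Equiv.Perm V), Q t g → Q' t (e.permCongr g))
    (hG : ∀ N : Subgroup G, N.index ≠ 0 → ∃ t, 0 < t ∧ ∀ f : G, Q' t f.1 → f ∈ N) :
    Open Q P := by
  intro N hN
  obtain ⟨t, ht, h1⟩ := hG (N.map (gEquiv e G P h).toMonoidHom) (by
    rw [Subgroup.index_map_of_bijective (gEquiv e G P h).bijective]
    exact hN)
  refine ⟨t, ht, fun f hf => ?_⟩
  have h2 : gEquiv e G P h f ∈ N.map (gEquiv e G P h).toMonoidHom := h1 _ (hQ t f.1 hf)
  obtain ⟨y, hy, hy2⟩ := h2
  have h3 : y = f := (gEquiv e G P h).injective hy2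
  exact h3 ▸ hy

end transport

end Vale.Agent.P011.H900
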