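import Vale.Agent.P011.H900.Brg1

/-!
Degrees of the fixed fields, and units of the fixed field.
-/

open Module

namespace Vale.Agent.P011.H900

open Vale.Agent.P011.MPQ Vale.Agent.P011.D4

section unit

variable {k F : Type} [Field k] [Field F] [Algebra k F]

theorem unit_of {l : List (F → F)}
    (hfix : ∀ x, (∀ r ∈ l, r x = x) → ∃ y : k, algebraMap k F y = x) {x : F}
    (hx : ∀ r ∈ l, r x = x) (h0 : x ≠ 0) : ∃ u : kˣ, ((up F u : Fˣ) : F) = x := by
  obtain ⟨y, rfl⟩ := hfix x hx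
  refine ⟨Units.mk0 y fun h => h0 ?_, rfl⟩
  rw [h, map_zero]

theorem ne_one {ρ : F ≃ₐ[k] F} (h : ∃ x, ρ x ≠ x) : ρ ≠ 1 := by
  obtain ⟨x, hx⟩ := h
  rintro rfl
  exact hx rfl

end unit

section rank

variable {k F : Type} [Field k] [Field F] [Algebra k F] [FiniteDimensional k F] [IsGalois k F]

theorem rank_le {S : Set (F ≃ₐ[k] F)} (hS : Subgroup.closure S = ⊤) (T : Finset (F ≃ₐ[k] F))
    (h1 : (1 : F ≃ₐ[k] F) ∈ T) (hT : ∀ s ∈ S, ∀ t ∈ T, s * t ∈ T) : finrank k F ≤ T.card := by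
  rw [← IsGalois.card_aut_eq_finrank]
  exact card_le hS T h1 hT

theorem dvd_rank {p : ℕ} (hp : p.Prime) {ρ : F ≃ₐ[k] F} (h1 : ρ ≠ 1) (h2 : ρ ^ p = 1) :
    p ∣ finrank k F := by
  rw [← IsGalois.card_aut_eq_finrank]
  have : Fact p.Prime := ⟨hp⟩
  rw [← orderOf_eq_prime h2 h1]
  exact orderOf_dvd_natCard ρ

omit [FiniteDimensional k F] [IsGalois k F] in
theorem pow3 {ρ : F ≃ₐ[k] F} (h : ∀ x, ρ (ρ (ρ x)) = x) : ρ ^ 3 = 1 := by
  ext x
  rw [pow_succ, pow_two]
  exact h x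

omit [FiniteDimensional k F] [IsGalois k F] in
theorem pow2 {σ : F ≃ₐ[k] F} (h : ∀ x, σ (σ x) = x) : σ ^ 2 = 1 := by
  ext x
  rw [pow_two]
  exact h x

theorem rank2 {σ : F ≃ₐ[k] F} (hcl : Subgroup.closure {g : F ≃ₐ[k] F | ⇑g ∈ [⇑σ]} = ⊤)
    (h1 : ∃ x, σ x ≠ x) (h2 : ∀ x, σ (σ x) = x) : finrank k F = 2 := by
  classical
  have h3 := pow2 h2
  have h4 := dvd_rank Nat.prime_two (ne_one h1) h3
  have h5 := rank_le hcl ((Finset.range 2).image fun i => σ ^ i)
    (Finset.mem_image.2 ⟨0, by simp, pow_zero _⟩) (by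
      intro s hs t ht
      have hs' : s = σ := by
        simp only [List.mem_singleton, Set.mem_ofPred_eq] at hs
        exact DFunLike.coe_injective hs
      obtain ⟨i, -, rfl⟩ := Finset.mem_image.1 ht
      rw [hs', ← pow_succ', pow_eq_pow_mod (i + 1) h3]
      exact Finset.mem_image.2 ⟨_, Finset.mem_range.2 (Nat.mod_lt _ (by norm_num)), rfl⟩)
  have h6 : ((Finset.range 2).image fun i => σ ^ i).card ≤ 2 :=
    Finset.card_image_le.trans (by simp)
  have h7 : 0 < finrank k F := finrank_pos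
  exact le_antisymm (h5.trans h6) (Nat.le_of_dvd h7 h4)

theorem rank3 {σ : F ≃ₐ[k] F} (hcl : Subgroup.closure {g : F ≃ₐ[k] F | ⇑g ∈ [⇑σ]} = ⊤)
    (h1 : ∃ x, σ x ≠ x) (h2 : ∀ x, σ (σ (σ x)) = x) : finrank k F = 3 := by
  classical
  have h3 := pow3 h2
  have h4 := dvd_rank Nat.prime_three (ne_one h1) h3
  have h5 := rank_le hcl ((Finset.range 3).image fun i => σ ^ i)
    (Finset.mem_image.2 ⟨0, by simp, pow_zero _⟩) (by
      intro s hs t ht
      have hs' : s = σ := by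
        simp only [List.mem_singleton, Set.mem_ofPred_eq] at hs
        exact DFunLike.coe_injective hs
      obtain ⟨i, -, rfl⟩ := Finset.mem_image.1 ht
      rw [hs', ← pow_succ', pow_eq_pow_mod (i + 1) h3]
      exact Finset.mem_image.2 ⟨_, Finset.mem_range.2 (Nat.mod_lt _ (by norm_num)), rfl⟩)
  have h6 : ((Finset.range 3).image fun i => σ ^ i).card ≤ 3 :=
    Finset.card_image_le.trans (by simp)
  have h7 : 0 < finrank k F := finrank_pos
  exact le_antisymm (h5.trans h6) (Nat.le_of_dvd h7 h4)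

theorem rank6 {ρ σ : F ≃ₐ[k] F} (hcl : Subgroup.closure {g : F ≃ₐ[k] F | ⇑g ∈ [⇑ρ, ⇑σ]} = ⊤)
    (h1 : ∃ x, ρ x ≠ x) (h2 : ∀ x, ρ (ρ (ρ x)) = x) (h1' : ∃ x, σ x ≠ x)
    (h2' : ∀ x, σ (σ x) = x) (hc : ∀ x, ρ (σ x) = σ (ρ x)) : finrank k F = 6 := by
  classical
  have h3 := pow3 h2
  have h3' := pow2 h2'
  have hc' : Commute σ ρ := by
    ext x
    exact (hc x).symm
  have h4 := dvd_rank Nat.prime_three (ne_one h1) h3
  have h4' := dvd_rank Nat.prime_two (ne_one h1') h3'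
  have h5 := rank_le hcl ((Finset.range 3 ×ˢ Finset.range 2).image fun i => ρ ^ i.1 * σ ^ i.2)
    (Finset.mem_image.2 ⟨(0, 0), by simp, by simp⟩) (by
      intro s hs t ht
      obtain ⟨i, hi, rfl⟩ := Finset.mem_image.1 ht
      rw [Finset.mem_product, Finset.mem_range, Finset.mem_range] at hi
      simp only [List.mem_cons, List.not_mem_nil, or_false, Set.mem_ofPred_eq] at hs
      rcases hs with hs | hs
      · rw [show s = ρ from DFunLike.coe_injective hs, ← mul_assoc, ← pow_succ',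
          pow_eq_pow_mod (i.1 + 1) h3]
        exact Finset.mem_image.2 ⟨((i.1 + 1) % 3, i.2), by
          rw [Finset.mem_product, Finset.mem_range, Finset.mem_range]
          exact ⟨Nat.mod_lt _ (by norm_num), hi.2⟩, rfl⟩
      · rw [show s = σ from DFunLike.coe_injective hs, ← mul_assoc, (hc'.pow_right i.1).eq,
          mul_assoc, ← pow_succ', pow_eq_pow_mod (i.2 + 1) h3']
        exact Finset.mem_image.2 ⟨(i.1, (i.2 + 1) % 2), by
          rw [Finset.mem_product, Finset.mem_range, Finset.mem_range]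
          exact ⟨hi.1, Nat.mod_lt _ (by norm_num)⟩, rfl⟩)
  have h6 : ((Finset.range 3 ×ˢ Finset.range 2).image fun i => ρ ^ i.1 * σ ^ i.2).card ≤ 6 :=
    Finset.card_image_le.trans (by simp)
  have h7 : 0 < finrank k F := finrank_pos
  have h8 : 6 ∣ finrank k F := by
    have := Nat.Coprime.mul_dvd_of_dvd_of_dvd (by norm_num : Nat.Coprime 3 2) h4 h4'
    exact this
  exact le_antisymm (h5.trans h6) (Nat.le_of_dvd h7 h8)

end rank

end Vale.Agent.P011.H900
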