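import Vale.Agent.P011.H900.Brg1
import Vale.Agent.P011.E6.Defs
import Vale.Agent.P011.E6H.Defs
import Vale.Agent.P011.E6H.XDefs
import Vale.Agent.P011.E6H.Hyp

/-!
Groups of type `E₆` in the old and in the new letters.
-/

open Module

namespace Vale.Agent.P011.H900

open Vale.Agent.P011.MPQ Vale.Agent.P011.D4 Vale.Agent.P011.E6 Vale.Agent.P011.E6H

section alb

variable {F : Type} [Field F]

/-- The hermitian matrices in the old and in the new letters. -/
def ae (a b c : Fˣ) : Al (a : F) (b : F) ≃ Alb a b c where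
  toFun x := ⟨x.1 0, x.1 1, x.1 2, (oe a b c).symm (x.2 0), (oe a b c).symm (x.2 1),
    (oe a b c).symm (x.2 2)⟩
  invFun x := (![x.d1, x.d2, x.d3], ![oe a b c x.x1, oe a b c x.x2, oe a b c x.x3])
  left_inv x := by
    ext1
    · funext i
      fin_cases i <;> rfl
    · funext i
      fin_cases i <;> rfl
  right_inv x := rfl

variable {a b c : Fˣ}

theorem ae_add (x y : Al (a : F) (b : F)) : ae a b c (x + y) = ae a b c x + ae a b c y := rfl

theorem ae_sub (x y : Al (a : F) (b : F)) : ae a b c (x - y) = ae a b c x - ae a b c y := rfl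

theorem ae_zero : ae a b c 0 = 0 := rfl

theorem ae_smul (t : F) (x : Al (a : F) (b : F)) : ae a b c (t • x) = t • ae a b c x := rfl

theorem ae_d1 (x : Al (a : F) (b : F)) : (ae a b c x).d1 = x.1 0 := rfl
theorem ae_d2 (x : Al (a : F) (b : F)) : (ae a b c x).d2 = x.1 1 := rfl
theorem ae_d3 (x : Al (a : F) (b : F)) : (ae a b c x).d3 = x.1 2 := rfl
theorem ae_x1 (x : Al (a : F) (b : F)) : (ae a b c x).x1 = (oe a b c).symm (x.2 0) := rfl
theorem ae_x2 (x : Al (a : F) (b : F)) : (ae a b c x).x2 = (oe a b c).symm (x.2 1) := rfl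
theorem ae_x3 (x : Al (a : F) (b : F)) : (ae a b c x).x3 = (oe a b c).symm (x.2 2) := rfl

theorem bil_eq (x y : Oct a b c) :
    Oct.bil x y = 2 * re (om (c : F) (oe a b c x) (oc (oe a b c y))) := by
  simp [Oct.bil, Oct.norm, nrd, re, om, oc, oe]
  ring

theorem re_om_smul {a b : F} (c t : F) (x y : Oc a b) :
    re (om c (t • x) y) = t * re (om c x y) := by
  simp [re, om]
  ring

theorem cub_eq (x : Al (a : F) (b : F)) : cub (c : F) x = Alb.cub (ae a b c x) := by
  have h1 : ∀ z : Oct a b c, Oct.bil z 1 = 2 * re (oe a b c z) := by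
    intro z
    rw [bil_eq]
    simp [re, om, oc, oe]
  rw [Alb.cub, h1, cub, Fin.sum_univ_three, oe_norm, oe_norm, oe_norm]
  simp only [oe_mul, ae_d1, ae_d2, ae_d3, ae_x1, ae_x2, ae_x3, Equiv.apply_symm_apply]
  ring

end alb

section ext

variable {k F : Type} [Field k] [Field F] [Algebra k F] {a b c : kˣ}

/-- The space of hermitian matrices over the extension. -/
abbrev aeL (a b c : kˣ) : Al ((up F a : Fˣ) : F) ((up F b : Fˣ) : F) ≃ AlbL F a b c :=
  ae (up F a) (up F b) (up F c)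

theorem her_eq (σ : F ≃ₐ[k] F) (g : Fin 3 → Fˣ)
    (x y : Al ((up F a : Fˣ) : F) ((up F b : Fˣ) : F)) :
    her ((up F c : Fˣ) : F) σ (fun i => (g i : F)) x y =
      E6H.her σ g (aeL a b c x) (aeL a b c y) := by
  rw [E6H.her, Alb.tf, bil_eq, bil_eq, bil_eq, her, Fin.sum_univ_three]
  simp only [Alb.wt, amap, ae_d1, ae_d2, ae_d3, ae_x1, ae_x2, ae_x3, oe_smul, oe_omap,
    Equiv.apply_symm_apply, re_om_smul]
  have h1 : (0 : Fin 3) + 1 = 1 := rfl
  have h2 : (0 : Fin 3) + 2 = 2 := rfl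
  have h3 : (1 : Fin 3) + 1 = 2 := rfl
  have h4 : (1 : Fin 3) + 2 = 0 := rfl
  have h5 : (2 : Fin 3) + 1 = 0 := rfl
  have h6 : (2 : Fin 3) + 2 = 1 := rfl
  rw [h1, h2, h3, h4, h5, h6]
  ring

theorem ph_eq (ρ : F ≃ₐ[k] F) (e : Fˣ) (x : Al ((up F a : Fˣ) : F) ((up F b : Fˣ) : F)) :
    aeL a b c (ph ρ (e : F) x) = E6H.ph ρ e (aeL a b c x) := by
  simp only [E6H.ph, ph, Units.val_inv_eq_inv_val]
  rfl

end ext

section grp

variable {F : Type} [Field F] {a b c : Fˣ}

theorem pc_apply (φ : Equiv.Perm (Al (a : F) (b : F))) (x : Al (a : F) (b : F)) :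
    (ae a b c).permCongr φ (ae a b c x) = ae a b c (φ x) := by
  rw [Equiv.permCongr_apply, Equiv.symm_apply_apply]

theorem cub_iff (φ : Equiv.Perm (Al (a : F) (b : F))) :
    Cub (c : F) φ ↔ IsNormMap (a := a) (b := b) (c := c) ((ae a b c).permCongr φ) := by
  constructor
  · rintro ⟨h1, h2⟩
    have h0 : φ 0 = 0 := by
      have h3 := h1 1 0 0
      rw [one_smul, one_smul, add_zero] at h3
      exact left_eq_add.mp h3
    refine ⟨fun x y => ?_, fun t x => ?_, fun x => ?_⟩
    · obtain ⟨x, rfl⟩ := (ae a b c).surjective x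
      obtain ⟨y, rfl⟩ := (ae a b c).surjective y
      rw [← ae_add, pc_apply, pc_apply, pc_apply, ← ae_add]
      have h3 := h1 1 x y
      rw [one_smul, one_smul] at h3
      rw [h3]
    · obtain ⟨x, rfl⟩ := (ae a b c).surjective x
      rw [← ae_smul, pc_apply, pc_apply, ← ae_smul]
      have h3 := h1 t x 0
      rw [h0, add_zero, add_zero] at h3
      rw [h3]
    · obtain ⟨x, rfl⟩ := (ae a b c).surjective x
      rw [pc_apply, ← cub_eq, ← cub_eq, h2]
  · rintro ⟨h1, h2, h3⟩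
    refine ⟨fun t x y => ?_, fun x => ?_⟩
    · apply (ae a b c).injective
      rw [← pc_apply, ae_add, ae_smul, h1, h2, pc_apply, pc_apply, ae_add, ae_smul]
    · rw [cub_eq, cub_eq, ← pc_apply, h3]

end grp

section grpL

variable {k F : Type} [Field k] [Field F] [Algebra k F] {a b c : kˣ}

theorem her_iff (σ : F ≃ₐ[k] F) (g : Fin 3 → Fˣ)
    (φ : Equiv.Perm (Al ((up F a : Fˣ) : F) ((up F b : Fˣ) : F))) :
    (Cub ((up F c : Fˣ) : F) φ ∧ Her ((up F c : Fˣ) : F) σ (fun i => (g i : F)) φ) ↔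
      (aeL a b c).permCongr φ ∈ GHer σ g a b c := by
  have h0 : (aeL a b c).permCongr φ ∈ GHer σ g a b c ↔
      IsNormMap (a := up F a) (b := up F b) (c := up F c) ((aeL a b c).permCongr φ) ∧
        ∀ x y, E6H.her σ g ((aeL a b c).permCongr φ x) ((aeL a b c).permCongr φ y) =
          E6H.her σ g x y := Iff.rfl
  rw [h0, cub_iff]
  refine and_congr_right fun _ => ⟨fun h x y => ?_, fun h x y => ?_⟩
  · obtain ⟨x, rfl⟩ := (aeL a b c).surjective x
    obtain ⟨y, rfl⟩ := (aeL a b c).surjective y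
    rw [pc_apply, pc_apply, ← her_eq, ← her_eq, h]
  · rw [her_eq, her_eq, ← pc_apply, ← pc_apply, h]

theorem ph_iff (ρ : F ≃ₐ[k] F) (e : Fˣ)
    (φ : Equiv.Perm (Al ((up F a : Fˣ) : F) ((up F b : Fˣ) : F))) :
    (Cub ((up F c : Fˣ) : F) φ ∧ Ph ρ (e : F) φ) ↔
      (aeL a b c).permCongr φ ∈ GPh ρ e a b c := by
  have h0 : (aeL a b c).permCongr φ ∈ GPh ρ e a b c ↔
      IsNormMap (a := up F a) (b := up F b) (c := up F c) ((aeL a b c).permCongr φ) ∧
        ∀ x, (aeL a b c).permCongr φ (E6H.ph ρ e x) = E6H.ph ρ e ((aeL a b c).permCongr φ x) :=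
    Iff.rfl
  rw [h0, cub_iff]
  refine and_congr_right fun _ => ⟨fun h x => ?_, fun h x => ?_⟩
  · obtain ⟨x, rfl⟩ := (aeL a b c).surjective x
    rw [← ph_eq, pc_apply, pc_apply, h, ph_eq]
  · apply (aeL a b c).injective
    rw [ph_eq, ← pc_apply, ph_eq, h, pc_apply]

theorem her_ph_iff (σ ρ : F ≃ₐ[k] F) (g : Fin 3 → Fˣ) (e : Fˣ)
    (φ : Equiv.Perm (Al ((up F a : Fˣ) : F) ((up F b : Fˣ) : F))) :
    (Cub ((up F c : Fˣ) : F) φ ∧ Her ((up F c : Fˣ) : F) σ (fun i => (g i : F)) φ ∧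
      Ph ρ (e : F) φ) ↔ (aeL a b c).permCongr φ ∈ GHer σ g a b c ⊓ GPh ρ e a b c := by
  rw [Subgroup.mem_inf, ← her_iff, ← ph_iff]
  tauto

end grpL

section data

variable {k F : Type} [Field k] [Field F] [Algebra k F] {a b c : kˣ}

/-- The coefficientwise inclusion. -/
theorem div_of {m : List (F → F)} {l : List (F → F)} (hm : ∀ r ∈ m, ∃ ρ : F ≃ₐ[k] F, ⇑ρ = r)
    (h : Dvn l m ((up F a : Fˣ) : F) ((up F b : Fˣ) : F) ((up F c : Fˣ) : F)) :
    Oct.Division a b c := by
  intro x hx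
  have hi : Function.Injective (algebraMap k F) := (algebraMap k F).injective
  have h1 := h.2 (⟨algebraMap k F x.fst.re, algebraMap k F x.fst.imI, algebraMap k F x.fst.imJ,
    algebraMap k F x.fst.imK⟩, ⟨algebraMap k F x.snd.re, algebraMap k F x.snd.imI,
    algebraMap k F x.snd.imJ, algebraMap k F x.snd.imK⟩) (fun r hr => by
      obtain ⟨ρ, rfl⟩ := hm r hr
      simp [ap]) (by
      rw [re_om_oc]
      have h2 := congrArg (algebraMap k F) hx
      rw [map_zero, Oct.norm, nrd, nrd] at h2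
      rw [← h2]
      simp [up])
  have h3 := congrArg (fun y : Oc ((up F a : Fˣ) : F) ((up F b : Fˣ) : F) => y.1) h1
  have h4 := congrArg (fun y : Oc ((up F a : Fˣ) : F) ((up F b : Fˣ) : F) => y.2) h1
  ext1
  · ext
    · exact hi (by simpa using congrArg (fun z => z.re) h3)
    · exact hi (by simpa using congrArg (fun z => z.imI) h3)
    · exact hi (by simpa using congrArg (fun z => z.imJ) h3)
    · exact hi (by simpa using congrArg (fun z => z.imK) h3)
  · ext
    · exact hi (by simpa using congrArg (fun z => z.re) h4)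
    · exact hi (by simpa using congrArg (fun z => z.imI) h4)
    · exact hi (by simpa using congrArg (fun z => z.imJ) h4)
    · exact hi (by simpa using congrArg (fun z => z.imK) h4)

theorem div_of_nil {F : Type} [Field F] {a b c : Fˣ} {l : List (F → F)}
    (h : Dvn l [] (a : F) (b : F) (c : F)) : Oct.Division a b c := by
  intro x hx
  rw [oe_norm] at hx
  have h1 := h.2 (oe a b c x) (by simp) hx
  exact (oe a b c).injective h1

end data

end Vale.Agent.P011.H900
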