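import Vale.Agent.P011.H900.BrgE
import Vale.Agent.P011.H900.Brg2
import Vale.Agent.P011.E6I.Gal

/-!
The clauses for groups of type `E₆` in the new letters, from the old ones.
-/

open Module

namespace Vale.Agent.P011.H900

open Vale.Agent.P011.MPQ Vale.Agent.P011.D4 Vale.Agent.P011.E6 Vale.Agent.P011.E6H

/-- The first clause in the old letters. -/
def Old1 : Prop :=
  ∀ {k K : Type} [Field k] [NumberField k] [Field K] [Algebra k K], finrank k K = 2 →
    ∀ σ : K ≃ₐ[k] K, (∃ x, σ x ≠ x) → ∀ {a b c : kˣ}, Oct.Division (up K a) (up K b) (up K c) →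
    ∀ g : Fin 3 → kˣ, (∀ x : AlbL K a b c, E6H.her σ (upG K g) x x = 0 → x = 0) →
    E6H.NoIndex (GHer σ (upG K g) a b c)

/-- The second clause in the old letters. -/
def Old2 : Prop :=
  ∀ {k L : Type} [Field k] [NumberField k] [Field L] [Algebra k L], finrank k L = 3 →
    ∀ ρ : L ≃ₐ[k] L, (∃ x, ρ x ≠ x) → ∀ lam : kˣ, (∀ x : L, Algebra.norm k x ≠ lam) →
    ∀ {a b c : kˣ}, Oct.Division a b c → E6H.NoIndex (GPh ρ (up L lam) a b c)

/-- The third clause in the old letters. -/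
def Old3 : Prop :=
  ∀ {k E : Type} [Field k] [NumberField k] [Field E] [Algebra k E],
    ∀ (ρ σ : E ≃ₐ[k] E) {kap : kˣ}, IsSextic ρ σ kap → ∀ {a b c : kˣ}, Oct.Division a b c →
    ∀ (lam : Eˣ) (g : Fin 3 → Eˣ), IsForm ρ σ lam g →
    OpenAt (fun _ => True) (GHer σ g a b c ⊓ GPh ρ lam a b c)

section

variable {F : Type} [Field F]

theorem her_single (c : F) (s : F → F) (hs : IsA s) (g : Fin 3 → F) {a b : F} (i : Fin 3) :
    her c s g ((Pi.single i 1, 0) : Al a b) (Pi.single i 1, 0) = g i ^ 2 := by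
  have h1 : s 1 = 1 := hs.one
  have h0 : s 0 = 0 := hs.zero
  fin_cases i <;> simp [her, Fin.sum_univ_three, om, re, oc, ap, h1, h0]

theorem g_ne {a b c : F} {s : F → F} (hs : IsA s) {g : Fin 3 → F}
    (h : ∀ x : Al a b, her c s g x x = 0 → x = 0) (i : Fin 3) : g i ≠ 0 := by
  intro h0
  have h1 := h (Pi.single i 1, 0) (by rw [her_single c s hs, h0]; ring)
  have h2 := congrFun (congrArg Prod.fst h1) i
  simp at h2

end

section

variable {F : Type} [Field F] [NumberField F]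

/-- Outer groups with trivial Tits class. -/
theorem e1_of (H : Old1) {s : F → F} {a b c : F} {g : Fin 3 → F} (hs : Aut 2 s)
    (hd : Dvn [s] [] a b c) (hg : ∀ i, s (g i) = g i)
    (ha : ∀ x : Al a b, her c s g x x = 0 → x = 0) :
    NoIndex fun f : Al a b → Al a b => Cub c f ∧ Her c s g f := by
  have hA : IsA s := hs.isA two_ne_zero
  obtain ⟨k, _, _, _, hfin, hgal, hfix, haut, hcl⟩ := exists_base [s] (by simpa using hA)
  obtain ⟨ha0, hb0, hc0⟩ := hd.ne (by simp)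
  have hg0 := g_ne hA ha
  obtain ⟨a, rfl⟩ := unit_of hfix (by simpa using (hd.1 s (by simp)).1) ha0
  obtain ⟨b, rfl⟩ := unit_of hfix (by simpa using (hd.1 s (by simp)).2.1) hb0
  obtain ⟨c, rfl⟩ := unit_of hfix (by simpa using (hd.1 s (by simp)).2.2) hc0
  have hg1 : ∀ i, ∃ u : kˣ, ((up F u : Fˣ) : F) = g i := fun i =>
    unit_of hfix (by simpa using hg i) (hg0 i)
  choose g' hg' using hg1
  obtain rfl : (fun i => ((upG F g' i : Fˣ) : F)) = g := funext hg'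
  obtain ⟨σ, rfl⟩ := haut s (by simp)
  have h2 : finrank k F = 2 := rank2 hcl hs.exists_ne hs.two
  have h3 := H h2 σ hs.exists_ne (div_of_nil hd) g' (fun x hx => by
    obtain ⟨x, rfl⟩ := (aeL a b c).surjective x
    rw [← her_eq] at hx
    rw [ha x hx]
    rfl)
  exact noIndex_of (aeL a b c) _ _ (her_iff σ (upG F g')) h3

/-- Inner groups. -/
theorem e2_of (H : Old2) {r : F → F} {a b c e : F} (hr : Aut 3 r)
    (hd : Dvn [r] [r] a b c) (he : Nnm r e) :
    NoIndex fun f : Al a b → Al a b => Cub c f ∧ Ph r e f := by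
  have hA : IsA r := hr.isA three_ne_zero
  obtain ⟨k, _, _, _, hfin, hgal, hfix, haut, hcl⟩ := exists_base [r] (by simpa using hA)
  obtain ⟨ha0, hb0, hc0⟩ := hd.ne (by simpa using hA)
  have he0 : e ≠ 0 := fun h => he.2 0 (by rw [h, zero_mul, zero_mul])
  obtain ⟨a, rfl⟩ := unit_of hfix (by simpa using (hd.1 r (by simp)).1) ha0
  obtain ⟨b, rfl⟩ := unit_of hfix (by simpa using (hd.1 r (by simp)).2.1) hb0
  obtain ⟨c, rfl⟩ := unit_of hfix (by simpa using (hd.1 r (by simp)).2.2) hc0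
  obtain ⟨e, rfl⟩ := unit_of hfix (by simpa using he.1) he0
  obtain ⟨ρ, rfl⟩ := haut r (by simp)
  have h3 : finrank k F = 3 := rank3 hcl hr.exists_ne hr.three
  have hn : ∀ x : F, Algebra.norm k x ≠ e := by
    intro x hx
    apply he.2 x
    have h4 := congrArg (algebraMap k F) hx
    rw [Vale.Agent.P011.E6I.norm_rho h3 (ne_one hr.exists_ne)] at h4
    exact h4
  have h4 := H h3 ρ hr.exists_ne e hn (div_of haut hd)
  exact noIndex_of (aeL a b c) _ _ (ph_iff ρ (up F e)) h4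

/-- Outer groups with nontrivial Tits class. -/
theorem e3_of (H : Old3) {r s : F → F} {a b c e t : F} {g : Fin 3 → F} (hr : Aut 3 r)
    (hs : Aut 2 s) (hc : ∀ x, r (s x) = s (r x)) (hd : Dvn [r, s] [r, s] a b c) (he : Nnm r e)
    (hw : Wei r s e t g) :
    Open Close fun f : Al a b → Al a b => Cub c f ∧ Her c s g f ∧ Ph r e f := by
  have hA : IsA r := hr.isA three_ne_zero
  have hB : IsA s := hs.isA two_ne_zero
  obtain ⟨k, _, _, _, hfin, hgal, hfix, haut, hcl⟩ := exists_base [r, s] (by simpa using ⟨hA, hB⟩)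
  obtain ⟨ha0, hb0, hc0⟩ := hd.ne (by simpa using ⟨hA, hB⟩)
  have he0 : e ≠ 0 := fun h => he.2 0 (by rw [h, zero_mul, zero_mul])
  have hr' := hd.1 r (by simp)
  have hs' := hd.1 s (by simp)
  obtain ⟨a, rfl⟩ := unit_of hfix (by simpa using ⟨hr'.1, hs'.1⟩) ha0
  obtain ⟨b, rfl⟩ := unit_of hfix (by simpa using ⟨hr'.2.1, hs'.2.1⟩) hb0
  obtain ⟨c, rfl⟩ := unit_of hfix (by simpa using ⟨hr'.2.2, hs'.2.2⟩) hc0
  obtain ⟨e, rfl⟩ : ∃ u : Fˣ, (u : F) = e := ⟨Units.mk0 e he0, rfl⟩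
  obtain ⟨ρ, rfl⟩ := haut r (by simp)
  obtain ⟨σ, rfl⟩ := haut s (by simp)
  obtain ⟨w1, w2, w3, w4, w5, w6⟩ := hw
  have hg0 : ∀ i, g i ≠ 0 := by
    have h2 : g 2 ≠ 0 := by
      intro h
      rw [h, map_zero, mul_zero] at w6
      exact w2 w6
    have ht : t ≠ 0 := by
      rintro rfl
      rw [zero_mul] at w5
      exact h2 w5
    have h1 : g 1 ≠ 0 := by
      rw [w4]
      exact mul_ne_zero ht ((map_ne_zero ρ).2 w2)
    intro i
    fin_cases i
    · exact w2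
    · exact h1
    · exact h2
  obtain ⟨g, rfl⟩ : ∃ g' : Fin 3 → Fˣ, (fun i => (g' i : F)) = g :=
    ⟨fun i => Units.mk0 (g i) (hg0 i), rfl⟩
  have h6 : finrank k F = 6 := rank6 hcl hr.exists_ne hr.three hs.exists_ne hs.two hc
  obtain ⟨kap, hk⟩ : ∃ kap : kˣ, ∃ x : F, x ^ 2 = algebraMap k F kap ∧ ρ x = x ∧ σ x = -x := by
    obtain ⟨y, hy⟩ := hs.exists_ne
    have hu : y - σ y ≠ 0 := fun h => hy (sub_eq_zero.1 h).symm
    have hσu : σ (y - σ y) = -(y - σ y) := by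
      rw [map_sub, hs.two]
      ring
    have hx0 : (y - σ y) * ρ (y - σ y) * ρ (ρ (y - σ y)) ≠ 0 :=
      mul_ne_zero (mul_ne_zero hu ((map_ne_zero ρ).2 hu))
        ((map_ne_zero ρ).2 ((map_ne_zero ρ).2 hu))
    have hρx : ρ ((y - σ y) * ρ (y - σ y) * ρ (ρ (y - σ y))) =
        (y - σ y) * ρ (y - σ y) * ρ (ρ (y - σ y)) := by
      rw [map_mul, map_mul, hr.three]
      ring
    have hσx : σ ((y - σ y) * ρ (y - σ y) * ρ (ρ (y - σ y))) =
        -((y - σ y) * ρ (y - σ y) * ρ (ρ (y - σ y))) := by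
      rw [map_mul, map_mul, ← hc, ← hc, ← hc, hσu, map_neg, map_neg]
      ring
    generalize (y - σ y) * ρ (y - σ y) * ρ (ρ (y - σ y)) = x at hx0 hρx hσx
    obtain ⟨u, hu⟩ := unit_of hfix (x := x ^ 2) (by
      simp only [List.mem_cons, List.not_mem_nil, or_false, forall_eq_or_imp, forall_eq]
      exact ⟨by rw [map_pow, hρx], by rw [map_pow, hσx, neg_sq]⟩) (pow_ne_zero 2 hx0)
    exact ⟨u, x, hu.symm, hρx, hσx⟩
  have hS : IsSextic ρ σ kap := ⟨h6, hr.exists_ne, hr.three, hs.two, hc, hk⟩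
  have hF : IsForm ρ σ e g := ⟨he.1, he.2, w1, ⟨t, w3, w4, w5, w6⟩⟩
  have h7 := H ρ σ hS (div_of haut hd) e g hF
  refine open_of (aeL a b c) _ _ (her_ph_iff σ ρ g e) Close
    (fun t f => ∀ w : F →+* ℂ, True → ∀ x, E6H.nm w (f x - x) ≤ t * E6H.nm w x) ?_ h7
  intro t φ hφ w _ x
  obtain ⟨x, rfl⟩ := (aeL a b c).surjective x
  rw [pc_apply, ← ae_sub]
  have hnm : ∀ x, E6H.nm w (aeL a b c x) = ∑ i, (‖w (x.1 i)‖ + nm w (x.2 i)) := by
    intro x
    rw [Fin.sum_univ_three, E6H.nm]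
    simp only [ae_d1, ae_d2, ae_d3, ae_x1, ae_x2, ae_x3, nm, qnm, oe_symm_fst, oe_symm_snd]
    ring
  rw [hnm, hnm]
  exact hφ w x

end

end Vale.Agent.P011.H900
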