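import Vale.Agent.P011.H900.BrgE2
import Vale.Agent.P011.E6.Tw2
import Vale.Agent.P011.E6I.HFin
import Vale.Agent.P011.E6W.H7.Fin2
import Vale.Agent.P011.E6W.H7.TiAll
import Vale.Agent.P011.E6W.H183.SixW
import Vale.Agent.P011.E6W.H196.KTh
import Vale.Agent.P011.E6X.H714.Main

/-!
The clauses for groups of type `E₆` in the new letters.
-/

open Module

namespace Vale.Agent.P011.H900

open Vale.Agent.P011.D4 Vale.Agent.P011.E6 Vale.Agent.P011.E6H

theorem old1 : Old1 := by
  intro k K _ _ _ _ hK σ hσ a b c hC γ hγ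
  have : FiniteDimensional k K := Module.finite_of_finrank_eq_succ hK
  have : NumberField K := NumberField.of_module_finite k K
  rw [gp_eq]
  exact fun N => (gp_main' hK (ne_one hσ) hC hγ N).1

theorem old2 : Old2 := by
  intro k L _ _ _ _ hL ρ hρ lam hlam a b c hC
  have : FiniteDimensional k L := Module.finite_of_finrank_eq_succ hL
  have : NumberField L := NumberField.of_module_finite k L
  rw [gpi_eq]
  exact fun N => (Vale.Agent.P011.E6I.gpi_main hL (ne_one hρ) hlam hC N).1

theorem old3 : Old3 := by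
  intro k E _ _ _ _ ρ σ kap hS a b c hC lam g hg
  have : FiniteDimensional k E := Module.finite_of_finrank_pos (by rw [hS.h6]; norm_num)
  have : NumberField E := NumberField.of_module_finite k E
  exact Vale.Agent.P011.E6W.H7.main
    (Vale.Agent.P011.E6W.H196.ktop _ _ fun L _ _ _ => Vale.Agent.P011.E6W.H7.tiAll _ L)
    (fun W hT => Vale.Agent.P011.E6W.H183.sixAt W hT) hS hC hg

section

variable {F : Type} [Field F] [NumberField F]

/-- Outer groups with trivial Tits class. -/
theorem e1 {s : F → F} {a b c : F} {g : Fin 3 → F} (hs : Aut 2 s)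
    (hd : Dvn [s] [] a b c) (hg : ∀ i, s (g i) = g i)
    (ha : ∀ x : Al a b, her c s g x x = 0 → x = 0) :
    NoIndex fun f : Al a b → Al a b => Cub c f ∧ Her c s g f := e1_of old1 hs hd hg ha

/-- Inner groups. -/
theorem e2 {r : F → F} {a b c e : F} (hr : Aut 3 r) (hd : Dvn [r] [r] a b c) (he : Nnm r e) :
    NoIndex fun f : Al a b → Al a b => Cub c f ∧ Ph r e f := e2_of old2 hr hd he

/-- Outer groups with nontrivial Tits class. -/
theorem e3 {r s : F → F} {a b c e t : F} {g : Fin 3 → F} (hr : Aut 3 r)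
    (hs : Aut 2 s) (hc : ∀ x, r (s x) = s (r x)) (hd : Dvn [r, s] [r, s] a b c) (he : Nnm r e)
    (hw : Wei r s e t g) :
    Open Close fun f : Al a b → Al a b => Cub c f ∧ Her c s g f ∧ Ph r e f :=
  e3_of old3 hr hs hc hd he hw

end

end Vale.Agent.P011.H900
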