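import Vale.Agent.P011.H900.SpecX

/-!
The clauses of the joint theorem for trialitarian groups and for groups of type `E₆`.
-/

namespace Vale.Agent.P011.H900

/-- The assertions. -/
inductive CaseX : Prop → Prop
  | d1 {F : Type} [Field F] [NumberField F] {r : F → F} {a b c : F} :
      Aut 3 r → Dvn [r] [r] a b c → CaseX (NoIndex fun f : Oc a b → Oc a b => Tri c r f)
  | d2 {F : Type} [Field F] [NumberField F] {r i : F → F} {a b c : F} :
      Aut 3 r → Aut 2 i → (∀ x, r (i (r x)) = i x) → Dvn [r, i] [r, i] a b c →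
      CaseX (NoIndex fun f : Oc a b → Oc a b => Tri c r f ∧ Swp i f)
  | d3 {F : Type} [Field F] [NumberField F] {r s : F → F} {a b c d q : F} :
      Dat [r, s] r s a b c d q →
      CaseX (NoIndex fun f : Oc a b → Oc a b => Tri c r f ∧ Twi c r s d q f)
  | d4 {F : Type} [Field F] [NumberField F] {r s i : F → F} {a b c d q : F} :
      Dat [r, s, i] r s a b c d q → Aut 2 i → (∀ x, s (i x) = i (s x)) →
      (∀ x, r (i (r x)) = i x) → i d = d → r (i q) = q →
      CaseX (NoIndex fun f : Oc a b → Oc a b => Tri c r f ∧ Twi c r s d q f ∧ Swp i f)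
  | e1 {F : Type} [Field F] [NumberField F] {s : F → F} {a b c : F} {g : Fin 3 → F} :
      Aut 2 s → Dvn [s] [] a b c → (∀ i, s (g i) = g i) →
      (∀ x : Al a b, her c s g x x = 0 → x = 0) →
      CaseX (NoIndex fun f : Al a b → Al a b => Cub c f ∧ Her c s g f)
  | e2 {F : Type} [Field F] [NumberField F] {r : F → F} {a b c e : F} :
      Aut 3 r → Dvn [r] [r] a b c → Nnm r e →
      CaseX (NoIndex fun f : Al a b → Al a b => Cub c f ∧ Ph r e f)
  | e3 {F : Type} [Field F] [NumberField F] {r s : F → F} {a b c e t : F} {g : Fin 3 → F} :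
      Aut 3 r → Aut 2 s → (∀ x, r (s x) = s (r x)) → Dvn [r, s] [r, s] a b c → Nnm r e →
      Wei r s e t g →
      CaseX (Open Close fun f : Al a b → Al a b => Cub c f ∧ Her c s g f ∧ Ph r e f)

end Vale.Agent.P011.H900
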