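import Mathlib.Algebra.Quaternion
import Mathlib.Analysis.Complex.Basic
import Mathlib.GroupTheory.Index
import Mathlib.NumberTheory.NumberField.Basic

/-!
The anisotropic trialitarian groups and groups of type `E₆` over number fields.

A number field `F` is given with some automorphisms; `k` is their common fixed field.
-/

namespace Vale.Agent.P011.H900

variable {F : Type} [Field F] {a b : F}

/-- The map `r` is an automorphism of the field `F` of prime order `n`. -/
def Aut (n : ℕ) (r : F → F) : Prop :=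
  (∀ x y, r (x + y) = r x + r y ∧ r (x * y) = r x * r y) ∧ r^[n] = id ∧ r ≠ id

/-- The octonions `Q + Q l` over `F`, where `Q` is the quaternion algebra `(a, b)`. -/
abbrev Oc (a b : F) : Type := QuaternionAlgebra F a 0 b × QuaternionAlgebra F a 0 b

/-- The product of octonions, with `l * l = c`. -/
def om (c : F) (x y : Oc a b) : Oc a b :=
  (x.1 * y.1 + c • (star y.2 * x.2), y.2 * x.1 + x.2 * star y.1)

/-- The conjugate octonion. -/
def oc (x : Oc a b) : Oc a b := (star x.1, -x.2)

/-- The real part of an octonion. -/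
def re (x : Oc a b) : F := x.1.re

/-- The map `r` applied to the coefficients of an octonion. -/
def ap (r : F → F) (x : Oc a b) : Oc a b :=
  (⟨r x.1.re, r x.1.imI, r x.1.imJ, r x.1.imK⟩, ⟨r x.2.re, r x.2.imI, r x.2.imJ, r x.2.imK⟩)

/-- `a`, `b`, `c` are fixed by the maps in `l`, and the octonions with coefficients fixed by the
maps in `m` form a division algebra: their norm form is anisotropic. -/
def Dvn (l m : List (F → F)) (a b c : F) : Prop :=
  (∀ r ∈ l, r a = a ∧ r b = b ∧ r c = c) ∧
    ∀ x : Oc a b, (∀ r ∈ m, ap r x = x) → re (om c x (oc x)) = 0 → x = 0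

/-- The group of the bijections with the property `P` (which form a group in all cases below). -/
def grp {V : Type} (P : (V → V) → Prop) : Subgroup (Equiv.Perm V) :=
  Subgroup.closure {f | P f}

/-- The group of the bijections with the property `P` has no proper subgroup of finite index. -/
def NoIndex {V : Type} (P : (V → V) → Prop) : Prop :=
  ∀ N : Subgroup (grp P), N.index ≠ 0 → N = ⊤

/-- Every subgroup of finite index of the group of the bijections with the property `P` contains
the bijections of the group with the property `Q t`, for some `t > 0`. -/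
def Open {V : Type} (Q : ℝ → (V → V) → Prop) (P : (V → V) → Prop) : Prop :=
  ∀ N : Subgroup (grp P), N.index ≠ 0 → ∃ t, 0 < t ∧ ∀ f : grp P, Q t f.1 → f ∈ N

section D4

/-- The map `f` is linear and compatible with the product `x * y = r(x') r²(y')` of the cyclic
composition. -/
def Tri (c : F) (r : F → F) (f : Oc a b → Oc a b) : Prop :=
  (∀ (t : F) x y, f (t • x + y) = t • f x + f y) ∧
    ∀ x y, f (om c (ap r (oc x)) (ap r (ap r (oc y)))) =
      om c (ap r (oc (f x))) (ap r (ap r (oc (f y))))

/-- The map `f` commutes with `x ↦ i(x')`. -/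
def Swp (i : F → F) (f : Oc a b → Oc a b) : Prop := ∀ x, f (ap i (oc x)) = ap i (oc (f x))

/-- The octonion `t e₊ + e₋`, where `e₊ = (1 + i / d) / 2` and `e₋ = (1 - i / d) / 2`. -/
def me (d t : F) : Oc a b := (⟨(t + 1) / 2, (t - 1) / (2 * d), 0, 0⟩, 0)

/-- The map `f` commutes with `x ↦ m s(x) m'`, where `m = q e₊ + e₋` and `m' = q r(q) e₊ + e₋`. -/
def Twi (c : F) (r s : F → F) (d q : F) (f : Oc a b → Oc a b) : Prop :=
  ∀ x, f (om c (om c (me d q) (ap s x)) (me d (q * r q))) =
    om c (om c (me d q) (ap s (f x))) (me d (q * r q))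

/-- The embedding `w` is real on the field of the elements fixed by the maps in `l`. -/
def Rl (l : List (F → F)) (w : F →+* ℂ) : Prop := ∀ x, (∀ r ∈ l, r x = x) → (w x).im = 0

/-- The data of a trialitarian group with nontrivial Tits class: `r` and `s` are commuting
automorphisms of orders three and two, `a`, `b`, `c` belong to the field `k` fixed by the maps in
`l`, the octonions over `k` form a division algebra, `d ^ 2 = a`, `r(d) = d`, `s(d) = -d`, the
element `q` is fixed by `s` and has norm one, `b` and `c` are negative at the real places of `k`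
where `a` is negative, and at one of them the real conjugates of `q` are positive. -/
def Dat (l : List (F → F)) (r s : F → F) (a b c d q : F) : Prop :=
  Aut 3 r ∧ Aut 2 s ∧ (∀ x, r (s x) = s (r x)) ∧ Dvn l l a b c ∧
    d ^ 2 = a ∧ r d = d ∧ s d = -d ∧ s q = q ∧ q * r q * r (r q) = 1 ∧
    (∀ w : F →+* ℂ, Rl l w → (w a).re < 0 → (w b).re < 0 ∧ (w c).re < 0) ∧
    ∃ w : F →+* ℂ, Rl l w ∧ (w a).re < 0 ∧
      ∀ j, (w (r^[j] q)).im = 0 → 0 < (w (r^[j] q)).re

end D4

section E6

/-- The hermitian matrices of degree three over the octonions: the diagonal entries, and the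
entries at `(2,3)`, `(3,1)`, `(1,2)`. -/
abbrev Al (a b : F) : Type := (Fin 3 → F) × (Fin 3 → Oc a b)

/-- The cubic norm. -/
def cub (c : F) (x : Al a b) : F :=
  x.1 0 * x.1 1 * x.1 2 - ∑ i, x.1 i * re (om c (x.2 i) (oc (x.2 i))) +
    2 * re (om c (om c (x.2 0) (x.2 1)) (x.2 2))

/-- The hermitian form `T(g x g, s(y))`, where `T` is the trace form. -/
def her (c : F) (s : F → F) (g : Fin 3 → F) (x y : Al a b) : F :=
  ∑ i, (g i ^ 2 * x.1 i * s (y.1 i) +
    g (i + 1) * g (i + 2) * (2 * re (om c (x.2 i) (oc (ap s (y.2 i))))))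

/-- The semilinear map `x ↦ e u r(x) uᵗ`, where `u e₁ = e₂`, `u e₂ = e₃`, `u e₃ = e⁻¹ e₁`. -/
def ph (r : F → F) (e : F) (x : Al a b) : Al a b :=
  (![e⁻¹ * r (x.1 2), e * r (x.1 0), e * r (x.1 1)],
    ![e • ap r (x.2 2), ap r (x.2 0), ap r (x.2 1)])

/-- The map `f` is linear and preserves the cubic norm. -/
def Cub (c : F) (f : Al a b → Al a b) : Prop :=
  (∀ (t : F) x y, f (t • x + y) = t • f x + f y) ∧ ∀ x, cub c (f x) = cub c x

/-- The map `f` preserves the hermitian form. -/
def Her (c : F) (s : F → F) (g : Fin 3 → F) (f : Al a b → Al a b) : Prop :=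
  ∀ x y, her c s g (f x) (f y) = her c s g x y

/-- The map `f` commutes with `ph`. -/
def Ph (r : F → F) (e : F) (f : Al a b → Al a b) : Prop := ∀ x, f (ph r e x) = ph r e (f x)

/-- The element `e` is fixed by `r` and is not a norm. -/
def Nnm (r : F → F) (e : F) : Prop := r e = e ∧ ∀ x, x * r x * r (r x) ≠ e

/-- The weights `g` are fixed by `s` and define a unitary involution of the cyclic algebra of `r`
and `e`. -/
def Wei (r s : F → F) (e t : F) (g : Fin 3 → F) : Prop :=
  (∀ i, s (g i) = g i) ∧ g 0 ≠ 0 ∧ s t = t ∧ g 1 = t * r (g 0) ∧ g 2 = t * r (g 1) ∧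
    g 0 = e * s e * t * r (g 2)

/-- The sum of the absolute values of the coordinates of an octonion. -/
noncomputable def nm (w : F → ℂ) (x : Oc a b) : ℝ :=
  ‖w x.1.re‖ + ‖w x.1.imI‖ + ‖w x.1.imJ‖ + ‖w x.1.imK‖ + (‖w x.2.re‖ + ‖w x.2.imI‖ + ‖w x.2.imJ‖ +
    ‖w x.2.imK‖)

/-- The map `f` is `t`-close to the identity at all embeddings of `F` in `ℂ`. -/
def Close (t : ℝ) (f : Al a b → Al a b) : Prop :=
  ∀ (w : F →+* ℂ) x, ∑ i, (‖w ((f x).1 i - x.1 i)‖ + nm w ((f x).2 i - x.2 i)) ≤
    t * ∑ i, (‖w (x.1 i)‖ + nm w (x.2 i))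

end E6

end Vale.Agent.P011.H900
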